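import Mathlib
import Vale.Agent.Lib.P162.Defs
import Vale.Agent.Lib.P162.RDefs
import Vale.Agent.Lib.P162.helper36.MoveInj
import Vale.Agent.Lib.P162.helper23.ProdTv

/-!
# P162, pool job R2 (second copy): a new card that is uniform off the old cards stays so

Convention: a `(j+1)`-tuple is the new card (coordinate `0`) followed by the `j` old cards.
-/

namespace Vale.Agent.Lib.P162.H75

open Finset BigOperators

/-- Abstract counting step: if every `mv c` is injective, then summing over the positions `p`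
off `w` the number of `c` that send `(p, w)` to `u` gives the number of `c` that send `w` to the
tail of `u`, provided `u 0` is off the tail of `u` (and `0` otherwise). -/
theorem count_new {P C : Type*} [Fintype P] [DecidableEq P] [Fintype C] (j : ℕ)
    (mv : C → P → P) (hinj : ∀ c, Function.Injective (mv c))
    (w : Fin j → P) (u : Fin (j + 1) → P) :
    ∑ p ∈ univ.filter (fun p : P => ∀ i, p ≠ w i),
        ((univ.filter fun c : C =>
          ∀ i', mv c ((Fin.cons p w : Fin (j + 1) → P) i') = u i').card : ℝ)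
      = if ∀ i : Fin j, u 0 ≠ u i.succ then
          ((univ.filter fun c : C => ∀ i, mv c (w i) = u i.succ).card : ℝ) else 0 := by
  classical
  have h1 : ∀ p : P, ((univ.filter fun c : C =>
          ∀ i', mv c ((Fin.cons p w : Fin (j + 1) → P) i') = u i').card : ℝ)
      = ∑ c : C, if (mv c p = u 0 ∧ ∀ i, mv c (w i) = u i.succ) then (1 : ℝ) else 0 := by
    intro p
    rw [Finset.natCast_card_filter]
    refine Finset.sum_congr rfl (fun c _ => ?_)
    have hiff : (∀ i', mv c ((Fin.cons p w : Fin (j + 1) → P) i') = u i') ↔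
        (mv c p = u 0 ∧ ∀ i, mv c (w i) = u i.succ) := by
      rw [Fin.forall_fin_succ]
      simp only [Fin.cons_zero, Fin.cons_succ]
    exact if_congr hiff rfl rfl
  have h2 : ∀ c : C, ∑ p ∈ univ.filter (fun p : P => ∀ i, p ≠ w i),
        (if (mv c p = u 0 ∧ ∀ i, mv c (w i) = u i.succ) then (1 : ℝ) else 0)
      = if ((∀ i, mv c (w i) = u i.succ) ∧ ∀ i : Fin j, u 0 ≠ u i.succ) then (1 : ℝ) else 0 := by
    intro c
    by_cases hB : ∀ i, mv c (w i) = u i.succ
    · obtain ⟨p0, hp0⟩ := (Finite.injective_iff_surjective.mp (hinj c)) (u 0)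
      have h3 : ∀ p ∈ univ.filter (fun p : P => ∀ i, p ≠ w i),
          (if (mv c p = u 0 ∧ ∀ i, mv c (w i) = u i.succ) then (1 : ℝ) else 0)
            = if p = p0 then (1 : ℝ) else 0 := by
        intro p _
        have hiff : (mv c p = u 0 ∧ ∀ i, mv c (w i) = u i.succ) ↔ p = p0 := by
          constructor
          · rintro ⟨hm, _⟩
            exact hinj c (hm.trans hp0.symm)
          · intro hp
            exact ⟨by rw [hp, hp0], hB⟩
        exact if_congr hiff rfl rfl
      rw [Finset.sum_congr rfl h3, Finset.sum_ite_eq' _ p0 (fun _ => (1 : ℝ))]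
      refine if_congr ?_ rfl rfl
      rw [Finset.mem_filter]
      constructor
      · rintro ⟨_, hq⟩
        refine ⟨hB, fun i hi => hq i ?_⟩
        apply hinj c
        rw [hp0, hB i, hi]
      · rintro ⟨_, hq⟩
        refine ⟨Finset.mem_univ _, fun i hi => hq i ?_⟩
        rw [← hp0, hi, hB i]
    · rw [if_neg (fun hh => hB hh.1)]
      apply Finset.sum_eq_zero
      intro p _
      rw [if_neg (fun hh => hB hh.2)]
  calc ∑ p ∈ univ.filter (fun p : P => ∀ i, p ≠ w i),
        ((univ.filter fun c : C =>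
          ∀ i', mv c ((Fin.cons p w : Fin (j + 1) → P) i') = u i').card : ℝ)
      = ∑ p ∈ univ.filter (fun p : P => ∀ i, p ≠ w i), ∑ c : C,
          (if (mv c p = u 0 ∧ ∀ i, mv c (w i) = u i.succ) then (1 : ℝ) else 0) :=
        Finset.sum_congr rfl (fun p _ => h1 p)
    _ = ∑ c : C, ∑ p ∈ univ.filter (fun p : P => ∀ i, p ≠ w i),
          (if (mv c p = u 0 ∧ ∀ i, mv c (w i) = u i.succ) then (1 : ℝ) else 0) :=
        Finset.sum_comm
    _ = ∑ c : C, (if ((∀ i, mv c (w i) = u i.succ) ∧ ∀ i : Fin j, u 0 ≠ u i.succ)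
          then (1 : ℝ) else 0) :=
        Finset.sum_congr rfl (fun c _ => h2 c)
    _ = if ∀ i : Fin j, u 0 ≠ u i.succ then
          ((univ.filter fun c : C => ∀ i, mv c (w i) = u i.succ).card : ℝ) else 0 := by
        by_cases hQ : ∀ i : Fin j, u 0 ≠ u i.succ
        · rw [if_pos hQ, Finset.natCast_card_filter]
          refine Finset.sum_congr rfl (fun c _ => ?_)
          exact if_congr (and_iff_left hQ) rfl rfl
        · rw [if_neg hQ]
          apply Finset.sum_eq_zero
          intro c _
          rw [if_neg (fun hh => hQ hh.2)]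

/-- One shuffle: a new card summed over the positions off the old cards `w`. -/
theorem step_new (h j : ℕ) [NeZero h] (w : Fin j → ZMod (2 * h))
    (u : Fin (j + 1) → ZMod (2 * h)) :
    ∑ p ∈ univ.filter (fun p : ZMod (2 * h) => ∀ i, p ≠ w i),
        stepProb h (j + 1) (Fin.cons p w) u
      = if ∀ i : Fin j, u 0 ≠ u i.succ then stepProb h j w (Fin.tail u) else 0 := by
  have key := count_new j (move h) (H36.move_injective h) w u
  show ∑ p ∈ univ.filter (fun p : ZMod (2 * h) => ∀ i, p ≠ w i),
      ((univ.filter fun c : ZMod h → Bool =>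
        ∀ i', move h c ((Fin.cons p w : Fin (j + 1) → ZMod (2 * h)) i') = u i').card : ℝ) / 2 ^ h
    = if ∀ i : Fin j, u 0 ≠ u i.succ then
        ((univ.filter fun c : ZMod h → Bool => ∀ i, move h c (w i) = u i.succ).card : ℝ) / 2 ^ h
      else 0
  rw [← Finset.sum_div, key]
  by_cases hQ : ∀ i : Fin j, u 0 ≠ u i.succ
  · rw [if_pos hQ, if_pos hQ]
  · rw [if_neg hQ, if_neg hQ, zero_div]

/-- Abstract induction on the number of steps. -/
theorem pow_new {P : Type*} [Fintype P] [DecidableEq P] (j : ℕ)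
    (K1 : Matrix (Fin (j + 1) → P) (Fin (j + 1) → P) ℝ)
    (K0 : Matrix (Fin j → P) (Fin j → P) ℝ)
    (hstep : ∀ (w : Fin j → P) (u : Fin (j + 1) → P),
      ∑ p ∈ univ.filter (fun p : P => ∀ i, p ≠ w i), K1 (Fin.cons p w) u
        = if ∀ i : Fin j, u 0 ≠ u i.succ then K0 w (Fin.tail u) else 0)
    (s : ℕ) (w : Fin j → P) (y : Fin (j + 1) → P) :
    ∑ p ∈ univ.filter (fun p : P => ∀ i, p ≠ w i), (K1 ^ s) (Fin.cons p w) y
      = if ∀ i : Fin j, y 0 ≠ y i.succ then (K0 ^ s) w (Fin.tail y) else 0 := by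
  classical
  induction s generalizing w with
  | zero =>
    rw [pow_zero, pow_zero]
    have hc : ∀ p : P, ((Fin.cons p w : Fin (j + 1) → P) = y) ↔ (p = y 0 ∧ w = Fin.tail y) := by
      intro p
      constructor
      · intro hh
        rw [← hh]
        exact ⟨(Fin.cons_zero (α := fun _ => P) p w).symm,
          (Fin.tail_cons (α := fun _ => P) p w).symm⟩
      · rintro ⟨h1, h2⟩
        rw [h1, h2]
        exact Fin.cons_self_tail y
    by_cases hw : w = Fin.tail y
    · have hone : ∀ p ∈ univ.filter (fun p : P => ∀ i, p ≠ w i),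
          (1 : Matrix (Fin (j + 1) → P) (Fin (j + 1) → P) ℝ) (Fin.cons p w) y
            = if p = y 0 then (1 : ℝ) else 0 := by
        intro p _
        rw [Matrix.one_apply]
        exact if_congr ((hc p).trans (and_iff_left hw)) rfl rfl
      rw [Finset.sum_congr rfl hone, Finset.sum_ite_eq' _ (y 0) (fun _ => (1 : ℝ)),
        Matrix.one_apply, if_pos hw]
      refine if_congr ?_ rfl rfl
      rw [Finset.mem_filter]
      constructor
      · rintro ⟨_, hq⟩ i
        have := hq i
        rw [hw] at this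
        exact this
      · intro hq
        refine ⟨Finset.mem_univ _, fun i => ?_⟩
        rw [hw]
        exact hq i
    · have hzero : ∀ p ∈ univ.filter (fun p : P => ∀ i, p ≠ w i),
          (1 : Matrix (Fin (j + 1) → P) (Fin (j + 1) → P) ℝ) (Fin.cons p w) y = 0 := by
        intro p _
        rw [Matrix.one_apply, if_neg]
        intro hh
        exact hw ((hc p).mp hh).2
      rw [Finset.sum_eq_zero hzero, Matrix.one_apply, if_neg hw, ite_self]
  | succ s ih =>
    rw [pow_succ', pow_succ']
    have e1 : ∀ p : P, (K1 * K1 ^ s) (Fin.cons p w) y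
        = ∑ u, K1 (Fin.cons p w) u * (K1 ^ s) u y := fun p => Matrix.mul_apply
    rw [Finset.sum_congr rfl (fun p _ => e1 p), Finset.sum_comm]
    have e2 : ∀ u : Fin (j + 1) → P,
        ∑ p ∈ univ.filter (fun p : P => ∀ i, p ≠ w i), K1 (Fin.cons p w) u * (K1 ^ s) u y
        = (if ∀ i : Fin j, u 0 ≠ u i.succ then K0 w (Fin.tail u) else 0) * (K1 ^ s) u y := by
      intro u
      rw [← Finset.sum_mul, hstep w u]
    rw [Finset.sum_congr rfl (fun u _ => e2 u)]
    rw [H23.sum_fin_succ_fun j (fun u : Fin (j + 1) → P =>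
      (if ∀ i : Fin j, u 0 ≠ u i.succ then K0 w (Fin.tail u) else 0) * (K1 ^ s) u y)]
    rw [Finset.sum_comm]
    have e3 : ∀ w' : Fin j → P,
        ∑ q : P, (if ∀ i : Fin j, (Fin.cons q w' : Fin (j + 1) → P) 0
              ≠ (Fin.cons q w' : Fin (j + 1) → P) i.succ
            then K0 w (Fin.tail (Fin.cons q w' : Fin (j + 1) → P)) else 0)
          * (K1 ^ s) (Fin.cons q w') y
        = K0 w w' * (if ∀ i : Fin j, y 0 ≠ y i.succ then (K0 ^ s) w' (Fin.tail y) else 0) := by
      intro w'
      rw [← ih w', Finset.mul_sum, Finset.sum_filter]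
      refine Finset.sum_congr rfl (fun q _ => ?_)
      simp only [Fin.cons_zero, Fin.cons_succ, Fin.tail_cons]
      by_cases hq : ∀ i : Fin j, q ≠ w' i
      · rw [if_pos hq, if_pos hq]
      · rw [if_neg hq, if_neg hq, zero_mul]
    rw [Finset.sum_congr rfl (fun w' _ => e3 w')]
    by_cases hQ : ∀ i : Fin j, y 0 ≠ y i.succ
    · rw [if_pos hQ, Matrix.mul_apply]
      refine Finset.sum_congr rfl (fun w' _ => ?_)
      rw [if_pos hQ]
    · rw [if_neg hQ]
      apply Finset.sum_eq_zero
      intro w' _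
      rw [if_neg hQ, mul_zero]

/-- Pool job P162-R2, exact statement: a new card that is uniform off the old cards `w` stays
uniform off the old cards after `s` Thorp shuffles. -/
theorem comm_new (h j : ℕ) [NeZero h] (s : ℕ) (w : Fin j → ZMod (2 * h))
    (y : Fin (j + 1) → ZMod (2 * h)) :
    ∑ p ∈ univ.filter (fun p : ZMod (2 * h) => ∀ i, p ≠ w i),
        (Kmat h (j + 1) ^ s) (Fin.cons p w : Fin (j + 1) → ZMod (2 * h)) y
      = if ∀ i : Fin j, y 0 ≠ y i.succ then (Kmat h j ^ s) w (Fin.tail y) else 0 :=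
  pow_new j (Kmat h (j + 1)) (Kmat h j) (fun w u => step_new h j w u) s w y

end Vale.Agent.Lib.P162.H75
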