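import Mathlib
import Vale.Agent.Lib.P162.Defs
import Vale.Agent.Lib.P162.RDefs
import Vale.Agent.Lib.P162.CVDefs
import Vale.Agent.Lib.P162.helper23.ProdTv
import Vale.Agent.Lib.P162.helper43.LumpTail
import Vale.Agent.Lib.P162.helper95.KmatBasic
import Vale.Agent.Lib.P162.helper36.MoveInj

/-!
# P162-CV2 (pool job 391, backup copy of helper75)

Summing the two-walker kernel over the start of one walker leaves the `(j+1)`-card chain of the
other walker.
-/

namespace Vale.Agent.Lib.P162.H75CV

open Finset BigOperators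

/-- Every `(j+2)`-tuple is `cons a (cons b x)`. -/
theorem exists_cons_cons {α : Type*} {j : ℕ} (y : Fin (j + 2) → α) :
    ∃ (a b : α) (x : Fin j → α), y = Fin.cons a (Fin.cons b x) := by
  refine ⟨y 0, Fin.tail y 0, Fin.tail (Fin.tail y), ?_⟩
  rw [Fin.cons_self_tail, Fin.cons_self_tail]

/-- A nonnegative family with zero sum vanishes. -/
theorem term_zero_of_sum_zero {ι : Type*} [Fintype ι] (f : ι → ℝ) (hf : ∀ i, 0 ≤ f i)
    (hs : ∑ i, f i = 0) (i : ι) : f i = 0 :=
  (Finset.sum_eq_zero_iff_of_nonneg (fun i _ => hf i)).mp hs i (Finset.mem_univ i)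

/-- A real identity: `a * d / d = a` when `a` vanishes with `d`. -/
theorem mul_div_self_of (a d : ℝ) (h0 : d = 0 → a = 0) : a * d / d = a := by
  by_cases hd : d = 0
  · rw [h0 hd, zero_mul, zero_div]
  · exact mul_div_assoc a d d ▸ by rw [div_self hd, mul_one]

/-- One step, sum over the start of walker two. -/
theorem Q_step_two (h j : ℕ) [NeZero h]
    (hstart : ∀ (v : Fin j → ZMod (2 * h)) (y : Fin (j + 1) → ZMod (2 * h)),
      ∑ q : ZMod (2 * h), Kmat h (j + 1) (Fin.cons q v : Fin (j + 1) → ZMod (2 * h)) y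
        = Kmat h j v (Fin.tail y))
    (q : ZMod (2 * h)) (v : Fin j → ZMod (2 * h)) (a b : ZMod (2 * h))
    (x : Fin j → ZMod (2 * h)) :
    ∑ q' : ZMod (2 * h), Qmat h j (Fin.cons q (Fin.cons q' v)) (Fin.cons a (Fin.cons b x))
      = Kmat h (j + 1) (Fin.cons q v) (Fin.cons a x) := by
  have h1 : ∀ q' : ZMod (2 * h),
      Qmat h j (Fin.cons q (Fin.cons q' v)) (Fin.cons a (Fin.cons b x))
        = Kmat h (j + 1) (Fin.cons q v) (Fin.cons a x) / Kmat h j v x
          * Kmat h (j + 1) (Fin.cons q' v) (Fin.cons b x) := by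
    intro q'
    rw [Qmat_cons]
    ring
  rw [Finset.sum_congr rfl (fun q' _ => h1 q'), ← Finset.mul_sum, hstart v (Fin.cons b x),
    Fin.tail_cons, div_mul_eq_mul_div]
  refine mul_div_self_of _ _ (fun hd => ?_)
  have h2 := H43.step_tail h j (Fin.cons q v) x
  rw [Fin.tail_cons, hd] at h2
  exact term_zero_of_sum_zero
    (fun a' : ZMod (2 * h) => Kmat h (j + 1) (Fin.cons q v) (Fin.cons a' x))
    (fun a' => H95.stepProb_nonneg h (j + 1) _ _) h2 a

/-- One step, sum over the start of walker one. -/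
theorem Q_step_one (h j : ℕ) [NeZero h]
    (hstart : ∀ (v : Fin j → ZMod (2 * h)) (y : Fin (j + 1) → ZMod (2 * h)),
      ∑ q : ZMod (2 * h), Kmat h (j + 1) (Fin.cons q v : Fin (j + 1) → ZMod (2 * h)) y
        = Kmat h j v (Fin.tail y))
    (q' : ZMod (2 * h)) (v : Fin j → ZMod (2 * h)) (a b : ZMod (2 * h))
    (x : Fin j → ZMod (2 * h)) :
    ∑ q : ZMod (2 * h), Qmat h j (Fin.cons q (Fin.cons q' v)) (Fin.cons a (Fin.cons b x))
      = Kmat h (j + 1) (Fin.cons q' v) (Fin.cons b x) := by
  have h1 : ∀ q : ZMod (2 * h),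
      Qmat h j (Fin.cons q (Fin.cons q' v)) (Fin.cons a (Fin.cons b x))
        = Kmat h (j + 1) (Fin.cons q' v) (Fin.cons b x) / Kmat h j v x
          * Kmat h (j + 1) (Fin.cons q v) (Fin.cons a x) := by
    intro q
    rw [Qmat_cons]
    ring
  rw [Finset.sum_congr rfl (fun q _ => h1 q), ← Finset.mul_sum, hstart v (Fin.cons a x),
    Fin.tail_cons, div_mul_eq_mul_div]
  refine mul_div_self_of _ _ (fun hd => ?_)
  have h2 := H43.step_tail h j (Fin.cons q' v) x
  rw [Fin.tail_cons, hd] at h2
  exact term_zero_of_sum_zero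
    (fun b' : ZMod (2 * h) => Kmat h (j + 1) (Fin.cons q' v) (Fin.cons b' x))
    (fun b' => H95.stepProb_nonneg h (j + 1) _ _) h2 b

/-- Expansion of one more step of the two-walker kernel along `cons a (cons b x)`. -/
theorem Qpow_succ_expand (h j : ℕ) [NeZero h] (t : ℕ) (u y : Fin (j + 2) → ZMod (2 * h)) :
    (Qmat h j ^ (t + 1)) u y
      = ∑ a : ZMod (2 * h), ∑ b : ZMod (2 * h), ∑ x : Fin j → ZMod (2 * h),
          Qmat h j u (Fin.cons a (Fin.cons b x))
            * (Qmat h j ^ t) (Fin.cons a (Fin.cons b x)) y := by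
  rw [pow_succ', Matrix.mul_apply, H23.sum_fin_succ_fun]
  refine Finset.sum_congr rfl (fun a _ => ?_)
  rw [H23.sum_fin_succ_fun]

/-- Expansion of one more step of the `(j+1)`-card kernel along `cons a x`. -/
theorem Kpow_succ_expand (h j : ℕ) [NeZero h] (t : ℕ) (z y : Fin (j + 1) → ZMod (2 * h)) :
    (Kmat h (j + 1) ^ (t + 1)) z y
      = ∑ a : ZMod (2 * h), ∑ x : Fin j → ZMod (2 * h),
          Kmat h (j + 1) z (Fin.cons a x) * (Kmat h (j + 1) ^ t) (Fin.cons a x) y := by
  rw [pow_succ', Matrix.mul_apply, H23.sum_fin_succ_fun]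

/-- CV2, first half, from the one-step marginal `hstart` (job CV1). -/
theorem Qpow_sum_two_of (h j : ℕ) [NeZero h]
    (hstart : ∀ (v : Fin j → ZMod (2 * h)) (y : Fin (j + 1) → ZMod (2 * h)),
      ∑ q : ZMod (2 * h), Kmat h (j + 1) (Fin.cons q v : Fin (j + 1) → ZMod (2 * h)) y
        = Kmat h j v (Fin.tail y))
    (t : ℕ) (q : ZMod (2 * h)) (v : Fin j → ZMod (2 * h))
    (y : Fin (j + 2) → ZMod (2 * h)) :
    ∑ q' : ZMod (2 * h), (Qmat h j ^ t) (Fin.cons q (Fin.cons q' v)) y
      = (Kmat h (j + 1) ^ t) (Fin.cons q v) (dropTwo y) := by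
  induction t generalizing q v with
  | zero =>
    obtain ⟨a, b, x, rfl⟩ := exists_cons_cons y
    rw [pow_zero, pow_zero, dropTwo_cons]
    by_cases hq : q = a ∧ v = x
    · obtain ⟨rfl, rfl⟩ := hq
      rw [Matrix.one_apply_eq, Finset.sum_eq_single b]
      · rw [Matrix.one_apply_eq]
      · intro q' _ hq'
        refine Matrix.one_apply_ne (fun heq => hq' ?_)
        exact (Fin.cons_inj.mp (Fin.cons_inj.mp heq).2).1
      · intro hb
        exact absurd (Finset.mem_univ b) hb
    · rw [Matrix.one_apply_ne (fun heq => hq (Fin.cons_inj.mp heq))]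
      refine Finset.sum_eq_zero (fun q' _ => ?_)
      refine Matrix.one_apply_ne (fun heq => hq ?_)
      have h1 := Fin.cons_inj.mp heq
      exact ⟨h1.1, (Fin.cons_inj.mp h1.2).2⟩
  | succ t ih =>
    rw [Kpow_succ_expand]
    calc ∑ q' : ZMod (2 * h), (Qmat h j ^ (t + 1)) (Fin.cons q (Fin.cons q' v)) y
        = ∑ q' : ZMod (2 * h), ∑ a : ZMod (2 * h), ∑ b : ZMod (2 * h),
            ∑ x : Fin j → ZMod (2 * h),
              Qmat h j (Fin.cons q (Fin.cons q' v)) (Fin.cons a (Fin.cons b x))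
                * (Qmat h j ^ t) (Fin.cons a (Fin.cons b x)) y :=
          Finset.sum_congr rfl (fun q' _ => Qpow_succ_expand h j t _ y)
      _ = ∑ a : ZMod (2 * h), ∑ b : ZMod (2 * h), ∑ x : Fin j → ZMod (2 * h),
            (∑ q' : ZMod (2 * h),
              Qmat h j (Fin.cons q (Fin.cons q' v)) (Fin.cons a (Fin.cons b x)))
                * (Qmat h j ^ t) (Fin.cons a (Fin.cons b x)) y := by
          rw [Finset.sum_comm]
          refine Finset.sum_congr rfl (fun a _ => ?_)
          rw [Finset.sum_comm]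
          refine Finset.sum_congr rfl (fun b _ => ?_)
          rw [Finset.sum_comm]
          refine Finset.sum_congr rfl (fun x _ => ?_)
          rw [Finset.sum_mul]
      _ = ∑ a : ZMod (2 * h), ∑ b : ZMod (2 * h), ∑ x : Fin j → ZMod (2 * h),
            Kmat h (j + 1) (Fin.cons q v) (Fin.cons a x)
              * (Qmat h j ^ t) (Fin.cons a (Fin.cons b x)) y := by
          refine Finset.sum_congr rfl (fun a _ => ?_)
          refine Finset.sum_congr rfl (fun b _ => ?_)
          refine Finset.sum_congr rfl (fun x _ => ?_)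
          rw [Q_step_two h j hstart q v a b x]
      _ = ∑ a : ZMod (2 * h), ∑ x : Fin j → ZMod (2 * h),
            Kmat h (j + 1) (Fin.cons q v) (Fin.cons a x)
              * (Kmat h (j + 1) ^ t) (Fin.cons a x) (dropTwo y) := by
          refine Finset.sum_congr rfl (fun a _ => ?_)
          rw [Finset.sum_comm]
          refine Finset.sum_congr rfl (fun x _ => ?_)
          rw [← Finset.mul_sum, ih a x]

/-- CV2, second half, from the one-step marginal `hstart` (job CV1). -/
theorem Qpow_sum_one_of (h j : ℕ) [NeZero h]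
    (hstart : ∀ (v : Fin j → ZMod (2 * h)) (y : Fin (j + 1) → ZMod (2 * h)),
      ∑ q : ZMod (2 * h), Kmat h (j + 1) (Fin.cons q v : Fin (j + 1) → ZMod (2 * h)) y
        = Kmat h j v (Fin.tail y))
    (t : ℕ) (q' : ZMod (2 * h)) (v : Fin j → ZMod (2 * h))
    (y : Fin (j + 2) → ZMod (2 * h)) :
    ∑ q : ZMod (2 * h), (Qmat h j ^ t) (Fin.cons q (Fin.cons q' v)) y
      = (Kmat h (j + 1) ^ t) (Fin.cons q' v) (Fin.tail y) := by
  induction t generalizing q' v with
  | zero =>
    obtain ⟨a, b, x, rfl⟩ := exists_cons_cons y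
    rw [pow_zero, pow_zero, tail_cons_cons]
    by_cases hq : q' = b ∧ v = x
    · obtain ⟨rfl, rfl⟩ := hq
      rw [Matrix.one_apply_eq, Finset.sum_eq_single a]
      · rw [Matrix.one_apply_eq]
      · intro q _ hq0
        refine Matrix.one_apply_ne (fun heq => hq0 ?_)
        exact (Fin.cons_inj.mp heq).1
      · intro ha
        exact absurd (Finset.mem_univ a) ha
    · rw [Matrix.one_apply_ne (fun heq => hq (Fin.cons_inj.mp heq))]
      refine Finset.sum_eq_zero (fun q _ => ?_)
      refine Matrix.one_apply_ne (fun heq => hq ?_)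
      exact Fin.cons_inj.mp (Fin.cons_inj.mp heq).2
  | succ t ih =>
    rw [Kpow_succ_expand]
    calc ∑ q : ZMod (2 * h), (Qmat h j ^ (t + 1)) (Fin.cons q (Fin.cons q' v)) y
        = ∑ q : ZMod (2 * h), ∑ a : ZMod (2 * h), ∑ b : ZMod (2 * h),
            ∑ x : Fin j → ZMod (2 * h),
              Qmat h j (Fin.cons q (Fin.cons q' v)) (Fin.cons a (Fin.cons b x))
                * (Qmat h j ^ t) (Fin.cons a (Fin.cons b x)) y :=
          Finset.sum_congr rfl (fun q _ => Qpow_succ_expand h j t _ y)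
      _ = ∑ a : ZMod (2 * h), ∑ b : ZMod (2 * h), ∑ x : Fin j → ZMod (2 * h),
            (∑ q : ZMod (2 * h),
              Qmat h j (Fin.cons q (Fin.cons q' v)) (Fin.cons a (Fin.cons b x)))
                * (Qmat h j ^ t) (Fin.cons a (Fin.cons b x)) y := by
          rw [Finset.sum_comm]
          refine Finset.sum_congr rfl (fun a _ => ?_)
          rw [Finset.sum_comm]
          refine Finset.sum_congr rfl (fun b _ => ?_)
          rw [Finset.sum_comm]
          refine Finset.sum_congr rfl (fun x _ => ?_)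
          rw [Finset.sum_mul]
      _ = ∑ a : ZMod (2 * h), ∑ b : ZMod (2 * h), ∑ x : Fin j → ZMod (2 * h),
            Kmat h (j + 1) (Fin.cons q' v) (Fin.cons b x)
              * (Qmat h j ^ t) (Fin.cons a (Fin.cons b x)) y := by
          refine Finset.sum_congr rfl (fun a _ => ?_)
          refine Finset.sum_congr rfl (fun b _ => ?_)
          refine Finset.sum_congr rfl (fun x _ => ?_)
          rw [Q_step_one h j hstart q' v a b x]
      _ = ∑ b : ZMod (2 * h), ∑ x : Fin j → ZMod (2 * h),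
            Kmat h (j + 1) (Fin.cons q' v) (Fin.cons b x)
              * (Kmat h (j + 1) ^ t) (Fin.cons b x) (Fin.tail y) := by
          rw [Finset.sum_comm]
          refine Finset.sum_congr rfl (fun b _ => ?_)
          rw [Finset.sum_comm]
          refine Finset.sum_congr rfl (fun x _ => ?_)
          rw [← Finset.mul_sum, ih b x]

/-- CV1, first statement (own proof, so that the two theorems below need no hypothesis): summing
the `(j+1)`-card kernel over the START position of the new card gives the `j`-card kernel. -/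
theorem step_sum_start (h j : ℕ) [NeZero h] (v : Fin j → ZMod (2 * h))
    (y : Fin (j + 1) → ZMod (2 * h)) :
    ∑ q : ZMod (2 * h), Kmat h (j + 1) (Fin.cons q v : Fin (j + 1) → ZMod (2 * h)) y
      = Kmat h j v (Fin.tail y) := by
  show ∑ q : ZMod (2 * h),
      ((univ.filter fun c : ZMod h → Bool =>
        ∀ i', move h c ((Fin.cons q v : Fin (j + 1) → ZMod (2 * h)) i') = y i').card : ℝ) / 2 ^ h
    = ((univ.filter fun c : ZMod h → Bool =>
        ∀ i, move h c (v i) = Fin.tail y i).card : ℝ) / 2 ^ h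
  rw [← Finset.sum_div]
  congr 1
  rw [← Nat.cast_sum]
  congr 1
  have hbij : ∀ c : ZMod h → Bool, Function.Bijective (move h c) := fun c =>
    Finite.injective_iff_bijective.mp (H36.move_injective h c)
  rw [Finset.card_eq_sum_card_fiberwise
    (f := fun c : ZMod h → Bool => (Equiv.ofBijective (move h c) (hbij c)).symm (y 0))
    (s := univ.filter fun c : ZMod h → Bool => ∀ i, move h c (v i) = Fin.tail y i)
    (t := (univ : Finset (ZMod (2 * h)))) (fun _ _ => Finset.mem_univ _)]
  refine Finset.sum_congr rfl fun q _ => ?_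
  congr 1
  ext c
  rw [Finset.mem_filter, Finset.mem_filter, Finset.mem_filter]
  constructor
  · rintro ⟨hu, hc⟩
    refine ⟨⟨hu, fun i => ?_⟩, ?_⟩
    · have h1 := hc i.succ
      rw [Fin.cons_succ] at h1
      exact h1
    · have h1 := hc 0
      rw [Fin.cons_zero] at h1
      exact (Equiv.symm_apply_eq _).mpr h1.symm
  · rintro ⟨⟨hu, hc⟩, h0⟩
    refine ⟨hu, fun i' => ?_⟩
    refine Fin.cases ?_ (fun i => ?_) i'
    · rw [Fin.cons_zero]
      exact ((Equiv.symm_apply_eq _).mp h0).symm
    · rw [Fin.cons_succ]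
      exact hc i

/-- CV2, first half: exact job statement. -/
theorem Qpow_sum_two (h j : ℕ) [NeZero h] (t : ℕ) (q : ZMod (2 * h)) (v : Fin j → ZMod (2 * h))
    (y : Fin (j + 2) → ZMod (2 * h)) :
    ∑ q' : ZMod (2 * h), (Qmat h j ^ t) (Fin.cons q (Fin.cons q' v)) y
      = (Kmat h (j + 1) ^ t) (Fin.cons q v) (dropTwo y) :=
  Qpow_sum_two_of h j (step_sum_start h j) t q v y

/-- CV2, second half: exact job statement. -/
theorem Qpow_sum_one (h j : ℕ) [NeZero h] (t : ℕ) (q' : ZMod (2 * h)) (v : Fin j → ZMod (2 * h))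
    (y : Fin (j + 2) → ZMod (2 * h)) :
    ∑ q : ZMod (2 * h), (Qmat h j ^ t) (Fin.cons q (Fin.cons q' v)) y
      = (Kmat h (j + 1) ^ t) (Fin.cons q' v) (Fin.tail y) :=
  Qpow_sum_one_of h j (step_sum_start h j) t q' v y

end Vale.Agent.Lib.P162.H75CV
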